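import Vale.Agent.P307.R2.H476.AvgW
import Vale.Agent.P307.R2.H804.Ind
import Vale.Agent.P307.R2.H427.Chart3
import Vale.Agent.P307.R2.H83.Scaf
import Vale.Agent.P307.R2.H732.TmL

/-!
Continuation of convergent sequences: a small tuple of a boundary, reflected into a subset `D`, is
the limit over `D` of a sequence in `D` which has a limit in the boundary over an arbitrary small
subset of the boundary. The limit is taken in a standard family.
-/

set_option linter.unusedSectionVars false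

universe u v w

open FirstOrder Cardinal Set

namespace Vale.Agent.P307.R2.H672

open Vale.Agent.P307 Vale.Agent.P307.H304 Vale.Agent.P307.R2.H287 Vale.Agent.P307.R2.H1
  Vale.Agent.P307.R2.H806 Vale.Agent.P307.R2.H971 Vale.Agent.P307.R2.H804
  Language.Structure Language.Substructure
open Vale.Agent.P307.R2.H541 Vale.Agent.P307.R2.H541.PG Vale.Agent.P307.R2.H533
  Vale.Agent.P307.R2.H650 Vale.Agent.P307.R2.H83 Vale.Agent.P307.R2.H427
open Vale.Agent.P307.R2.H476 (IsUnifW exists_limW)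
open Vale.Agent.P307.R2.H68 (part)

open scoped Classical

variable {ι : Type v} {L : Language.{u, u}} {K : AEC L} {ℓ θ σ ν : Cardinal.{u}}
  {κf α : Cardinal.{u} → Cardinal.{u}} {C : Type u} [L.Structure C]

theorem mk_sum_le₂ {ν : Cardinal.{u}} (hν : ℵ₀ ≤ ν) {a b : Type u} (ha : #a ≤ ν) (hb : #b ≤ ν) :
    #(a ⊕ b) ≤ ν := by
  rw [mk_sum, lift_id, lift_id]
  exact add_le_of_le hν ha hb

section

variable (h₀ : BasePt K ℓ κf α θ) (hK : K.IsLS ℓ)
  (hunb : ∀ ν, ν < κf ν ∧ K.CategoricalIn (κf ν)) (hst : Stab K ℓ α (H287.thr κf))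
  (hCm : K.mem C) (hs : Sat K θ C) (hCc : #C = Order.succ θ)

/-- A map which preserves the types of the small pieces, on a tuple. -/
theorem lel_eqS {N : Type u} [L.Structure N] (e : N ≃[L] C) (hν : ℵ₀ ≤ ν) {X : Set C} {f : C → C}
    (hf : ∀ A ⊆ X, #A ≤ ν → ∃ g ∈ autG L C, ∀ a ∈ A, g a = f a) {ζ : Type u} (hζ : #ζ ≤ ν)
    (y : ζ → C) (hy : ∀ z, y z ∈ X) : EqS L ν y fun z => e.symm (f (y z)) := by
  obtain ⟨g, ⟨g', hg'⟩, hg⟩ := hf (range y) (by
    rintro _ ⟨z, rfl⟩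
    exact hy z) (mk_range_le.trans hζ)
  have h1 := H804.EqS.equiv hν hζ (e.symm.comp g') y
  have h2 : (fun i => (e.symm.comp g') (y i)) = fun z => e.symm (f (y z)) := by
    funext z
    change e.symm (g' (y z)) = e.symm (f (y z))
    rw [hg', hg _ ⟨z, rfl⟩]
  rwa [h2] at h1

include h₀ hK hunb hst hCm hs hCc in
/-- **Continuation of convergent sequences**, in a chart. -/
theorem lim_core (hℓν : ℓ ≤ ν) (hνθ : ν < θ) (hthr : H287.thr κf (opB κf ν) ≤ θ)
    (c : Chart ι K ℓ θ σ C) (b : Finset ι → SuccTy θ) {F : Finset (Finset ι)}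
    {A P : Finset ι → Set C} {N : Set C} (hAP : ∀ v ∈ F, A v ⊆ P v) (f : C → C)
    (hf : (pg h₀ hK hunb hst hCm hs hCc).LEL ν f (iun P F))
    (himg : ∀ v ∈ F, f '' P v = c.St b v)
    (hk : Blk.KeyC (pg h₀ hK hunb hst hCm hs hCc) A P F N) {D B' : Set C}
    (hD : D ⊆ iun A F) (hB : B' ⊆ iun A F) (hBN : B' ⊆ N) (hBc : #B' < θ)
    {κ : Type u} (hκ : #κ ≤ ν) (v : κ → Finset ι) (hv : ∀ i, v i ∈ F) (x₀ : κ → C)
    (hJ : ∀ q ⊆ D, #q ≤ limB κf ν → ∃ g ∈ autG L C, (∀ x ∈ q, g x = x) ∧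
      ∀ i, g (x₀ i) ∈ A (v i) ∩ D)
    (hlimit : ∀ a : SuccTy (opB κf ν) → κ → c.E.N,
      IsUnifW c.E (fun i => part (c.Sx b (v i))) a → ∀ B'' : Set c.E.N, #B'' ≤ #B' →
      ∃ c' : κ → c.E.N, (∀ i, c' i ∈ hull c.E (part (c.Sx b (v i)))) ∧
        ∀ (ζ : Type u) (y : ζ → c.E.N), #ζ ≤ ν → (∀ z, y z ∈ B'') →
          ∃ x₀, ∀ x, x₀ ≤ x → EqS L ν (Sum.elim y c') (Sum.elim y (a x))) :
    ∃ (b' : SuccTy (opB κf ν) → κ → C) (x' : κ → C), (∀ ξ i, b' ξ i ∈ A (v i) ∩ D) ∧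
      (∀ i, x' i ∈ A (v i)) ∧ Conv L ν b' x₀ D ∧ Conv L ν b' x' B' := by
  have hν : ℵ₀ ≤ ν := hK.1.trans hℓν
  have hE : H287.thr κf (opB κf ν) ≤ #c.E.N := by
    rw [mk_congr c.e.toEquiv, hCc]
    exact hthr.trans (Order.le_succ θ)
  have hAP' : iun A F ⊆ iun P F := by
    rintro x ⟨v, hv, hx⟩
    exact ⟨v, hv, hAP v hv hx⟩
  let g : C → c.E.N := fun x => c.e.symm (f x)
  have hg : ∀ {ζ : Type u}, #ζ ≤ ν → ∀ y : ζ → C, (∀ z, y z ∈ iun P F) →
      EqS L ν y fun z => g (y z) := fun hζ y hy => lel_eqS c.e hν hf hζ y hy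
  have hgm : ∀ v ∈ F, ∀ x ∈ P v, g x ∈ hull c.E (part (c.Sx b v)) := by
    intro v hv x hx
    have h1 : f x ∈ c.St b v := by
      rw [← himg v hv]
      exact mem_image_of_mem f hx
    obtain ⟨z, hz, hz'⟩ := h1
    change c.e.symm (f x) ∈ _
    rw [← hz', Language.Equiv.symm_apply_apply]
    exact hz
  have hne : ∀ v ∈ F, (part (c.Sx b v) : Set (Reg θ c.m ×ₗ H68.Blk σ)).Nonempty := by
    intro v hv
    obtain ⟨i, -⟩ := c.hr
    exact ⟨toLex (rp i 2 c.a₀, Classical.arbitrary _), Chart.top_mem i⟩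
  have hI : Nonempty (Reg θ c.m ×ₗ H68.Blk σ) := by
    obtain ⟨i, -⟩ := c.hr
    exact ⟨toLex (rp i 2 c.a₀, Classical.arbitrary _)⟩
  let G : Set (C × c.E.N) := (fun d => (d, g d)) '' D
  let P₀ : Set (κ → c.E.N) := {c' | ∃ y : κ → C, (∀ i, y i ∈ A (v i) ∩ D) ∧ c' = fun i => g (y i)}
  have hG : ∀ Y ⊆ G, #Y ≤ limB κf ν → ∃ c' ∈ P₀, ∀ Y' ⊆ Y, #Y' ≤ ν →
      Good L ν (Y' ∪ range fun i => (x₀ i, c' i)) := by
    intro Y hY hYc
    obtain ⟨s, ⟨s', hs'⟩, hs1, hs2⟩ := hJ (Prod.fst '' Y) (by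
      rintro _ ⟨p, hp, rfl⟩
      obtain ⟨d, hd, rfl⟩ := hY hp
      exact hd) (mk_image_le.trans hYc)
    refine ⟨fun i => g (s (x₀ i)), ⟨fun i => s (x₀ i), hs2, rfl⟩, fun Y' hY' hY'c => ?_⟩
    rw [good_union_iff]
    have hc := mk_sum_le₂ hν hY'c hκ
    have h1 := H804.EqS.equiv hν hc s' (Sum.elim (fun p : Y' => p.1.1) x₀)
    have h2 : (fun i => s' (Sum.elim (fun p : Y' => p.1.1) x₀ i)) =
        Sum.elim (fun p : Y' => p.1.1) fun i => s (x₀ i) := by
      funext i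
      rcases i with p | i
      · change s' p.1.1 = p.1.1
        rw [hs', hs1 _ ⟨p.1, hY' p.2, rfl⟩]
      · exact hs' _
    rw [h2] at h1
    have h3 := hg hc (Sum.elim (fun p : Y' => p.1.1) fun i => s (x₀ i)) (by
      rintro (p | i)
      · obtain ⟨d, hd, hd'⟩ := hY (hY' p.2)
        change p.1.1 ∈ _
        rw [← hd']
        exact hAP' (hD hd)
      · exact ⟨v i, hv i, hAP _ (hv i) (hs2 i).1⟩)
    have h4 : (fun z => g (Sum.elim (fun p : Y' => p.1.1) (fun i => s (x₀ i)) z)) =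
        Sum.elim (fun p : Y' => p.1.2) fun i => g (s (x₀ i)) := by
      funext i
      rcases i with p | i
      · obtain ⟨d, hd, hd'⟩ := hY (hY' p.2)
        change g p.1.1 = p.1.2
        rw [← hd']
      · rfl
    rw [h4] at h3
    exact h1.trans h3
  obtain ⟨a, ha1, ha2, ha3⟩ := exists_limW hK hunb hℓν hI c.E hE hκ x₀ G P₀ hG
    (W := fun i => part (c.Sx b (v i))) (fun i => hne _ (hv i)) (by
      rintro _ ⟨y, hy, rfl⟩ i
      exact hgm _ (hv i) _ (hAP _ (hv i) (hy i).1))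
  choose b' hb'1 hb'2 using ha2
  obtain ⟨c', hc'1, hc'2⟩ := hlimit a ha1 (g '' B') mk_image_le
  have hpre : ∀ i, ∃ x ∈ P (v i), g x = c' i := by
    intro i
    have h1 : c.e (c' i) ∈ f '' P (v i) := by
      rw [himg _ (hv i)]
      exact mem_image_of_mem _ (hc'1 i)
    obtain ⟨x, hx, hx'⟩ := h1
    refine ⟨x, hx, ?_⟩
    change c.e.symm (f x) = c' i
    rw [hx', Language.Equiv.symm_apply_apply]
  choose x₁ hx₁ hx₁' using hpre
  obtain ⟨k, ⟨k', hk'⟩, hk1, hk2⟩ := hk (range x₁) (by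
    rintro _ ⟨i, rfl⟩
    exact ⟨v i, hv i, hx₁ i⟩) (mk_range_le.trans_lt (hκ.trans_lt hνθ)) B' hBN hBc
  refine ⟨b', fun i => k (x₁ i), hb'1, fun i => hk2 _ (hv i) _ ⟨i, rfl⟩ (hx₁ i), ?_, ?_⟩
  · intro ζ y hζ hy
    obtain ⟨ξ, hξ⟩ := ha3 (range fun z => (y z, g (y z))) (by
      rintro _ ⟨z, rfl⟩
      exact ⟨y z, hy z, rfl⟩) (mk_range_le.trans hζ)
    refine ⟨ξ, fun x hx => ?_⟩
    have hc := mk_sum_le₂ hν hζ hκ
    have h1 : EqS L ν (Sum.elim y x₀) (Sum.elim (fun z => g (y z)) (a x)) := by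
      refine Good.subset (hξ x hx) ?_
      rintro _ ⟨z | i, rfl⟩
      · exact Or.inl ⟨z, rfl⟩
      · exact Or.inr ⟨i, rfl⟩
    have h2 := hg hc (Sum.elim y (b' x)) (by
      rintro (z | i)
      · exact hAP' (hD (hy z))
      · exact ⟨v i, hv i, hAP _ (hv i) (hb'1 x i).1⟩)
    have h3 : (fun z => g (Sum.elim y (b' x) z)) = Sum.elim (fun z => g (y z)) (a x) := by
      funext i
      rcases i with z | i
      · rfl
      · rw [hb'2 x]
        rfl
    rw [h3] at h2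
    exact h2.trans h1.symm
  · intro ζ y hζ hy
    obtain ⟨ξ, hξ⟩ := hc'2 ζ (fun z => g (y z)) hζ fun z => mem_image_of_mem g (hy z)
    refine ⟨ξ, fun x hx => ?_⟩
    have hc := mk_sum_le₂ hν hζ hκ
    have h1 := hξ x hx
    have h2 := hg hc (Sum.elim y (b' x)) (by
      rintro (z | i)
      · exact hAP' (hB (hy z))
      · exact ⟨v i, hv i, hAP _ (hv i) (hb'1 x i).1⟩)
    have h3 : (fun z => g (Sum.elim y (b' x) z)) = Sum.elim (fun z => g (y z)) (a x) := by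
      funext i
      rcases i with z | i
      · rfl
      · rw [hb'2 x]
        rfl
    rw [h3] at h2
    have h4 := hg hc (Sum.elim y x₁) (by
      rintro (z | i)
      · exact hAP' (hB (hy z))
      · exact ⟨v i, hv i, hx₁ i⟩)
    have h5 : (fun z => g (Sum.elim y x₁ z)) = Sum.elim (fun z => g (y z)) c' := by
      funext i
      rcases i with z | i
      · rfl
      · exact hx₁' i
    rw [h5] at h4
    have h6 := H804.EqS.equiv hν hc k' (Sum.elim y x₁)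
    have h7 : (fun i => k' (Sum.elim y x₁ i)) = Sum.elim y fun i => k (x₁ i) := by
      funext i
      rcases i with z | i
      · change k' (y z) = y z
        rw [hk', hk1 _ (hy z)]
      · exact hk' _
    rw [h7] at h6
    exact ((h2.trans h1.symm).trans h4.symm).trans h6

end

end Vale.Agent.P307.R2.H672
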