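import Vale.Agent.P307.R2.H672.Ind
import Vale.Agent.P307.R2.H301.Nu

set_option linter.unusedSectionVars false

universe u v w

open FirstOrder Cardinal Set

namespace Vale.Agent.P307.R2.H301

open Vale.Agent.P307 Vale.Agent.P307.H304 Vale.Agent.P307.R2.H287 Language.Structure
  Language.Substructure

variable {L : Language.{u, u}} {X : Ctx L} {θ : Cardinal.{u}}
variable {M N P : Type u} [L.Structure M] [L.Structure N] [L.Structure P]

namespace Ctx

/-- The isomorphism between the ranges of two embeddings. -/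
theorem isoS_range {A : Type u} [L.Structure A] (i : A ↪[L] M) (j : A ↪[L] N) {f : M → N}
    (hf : ∀ m, f (i m) = j m) : IsoS f i.toHom.range j.toHom.range := by
  refine ⟨j.equivRange.comp i.equivRange.symm, ?_⟩
  rintro ⟨x, y, rfl⟩
  have h1 : (⟨i.toHom y, y, rfl⟩ : i.toHom.range) = i.equivRange y := rfl
  rw [h1]
  change f (i y) = ((j.equivRange (i.equivRange.symm (i.equivRange y)) : j.toHom.range) : N)
  rw [Language.Equiv.symm_apply_apply, hf]
  rfl

/-- Two independent families of realizations, generating faces `D s` and `D' s`. -/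
structure Fam (X : Ctx L) {θ : Cardinal.{u}} (q : MinPt X θ) (Ω M : Type u) [L.Structure M] where
  i : q.M ↪[L] M
  hi : X.K.Emb i
  a : Ω → M
  ha : ∀ w, q.Real i (a w)
  hind : ∀ w, a w ∉ cl X.K (range i ∪ a '' {w}ᶜ)

namespace Fam

variable {q : MinPt X θ} {Ω : Type u} (A : Fam X q Ω M) (B : Fam X q Ω N)

/-- The faces. -/
def D (s : Set Ω) : L.Substructure M := cl X.K (range A.i ∪ A.a '' s)

/-- Good maps between the faces. -/
structure Good (s : Set Ω) (f : M → N) : Prop where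
  iso : IsoS f (A.D s) (B.D s)
  base : ∀ m, f (A.i m) = B.i m
  pt : ∀ w ∈ s, f (A.a w) = B.a w

theorem D_mono {s t : Set Ω} (h : s ⊆ t) : A.D s ≤ A.D t :=
  cl_mono X.K (union_subset_union_right _ (image_mono h))

theorem subset_D (s : Set Ω) : range A.i ∪ A.a '' s ⊆ A.D s := subset_cl X.K _

theorem base_mem (s : Set Ω) (m : q.M) : A.i m ∈ A.D s := A.subset_D s (Or.inl ⟨m, rfl⟩)

theorem pt_mem {s : Set Ω} {w : Ω} (hw : w ∈ s) : A.a w ∈ A.D s :=
  A.subset_D s (Or.inr ⟨w, hw, rfl⟩)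

theorem l_le (hθ : X.Adm3 θ) (s : Set Ω) : X.l ≤ #(range A.i ∪ A.a '' s : Set M) := by
  refine le_trans ?_ (mk_le_mk_of_subset subset_union_left)
  rw [mk_range_emb, q.card]
  exact hθ.lt.le

theorem le_D (hθ : X.Adm3 θ) (s : Set Ω) : X.K.le (A.D s) :=
  le_cl A.hi.mem_right (A.l_le hθ s)

theorem mk_D (hθ : X.Adm3 θ) {s : Set Ω} (hs : s.Finite) : #(A.D s) = θ := by
  have hθ0 : ℵ₀ ≤ θ := X.hK.1.trans hθ.lt.le
  apply le_antisymm
  · refine (mk_cl_le A.hi.mem_right _).trans (add_le_of_le hθ0 ?_ hθ.lt.le)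
    refine (mk_union_le _ _).trans (add_le_of_le hθ0 ?_ ?_)
    · rw [mk_range_emb, q.card]
    · exact ((hs.image A.a).lt_aleph0.le).trans hθ0
  · refine (q.card.symm.trans (mk_range_emb A.i).symm).le.trans ?_
    exact mk_le_mk_of_subset (subset_union_left.trans (A.subset_D s))

theorem image_gens {A : Fam X q Ω M} {B : Fam X q Ω N} {s : Set Ω} {f : M → N}
    (hb : ∀ m, f (A.i m) = B.i m) (hp : ∀ w ∈ s, f (A.a w) = B.a w) :
    f '' (range A.i ∪ A.a '' s) = range B.i ∪ B.a '' s := by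
  rw [image_union, ← range_comp, image_image]
  congr 1
  · congr 1
    funext m
    exact hb m
  · exact image_congr hp

theorem Good.restrict {A : Fam X q Ω M} {B : Fam X q Ω N} (hθ : X.Adm3 θ) {s t : Set Ω}
    {f : M → N} (h : Good A B t f) (hst : s ⊆ t) : Good A B s f := by
  refine ⟨?_, h.base, fun w hw => h.pt w (hst hw)⟩
  have h1 := isoS_cl h.iso (A.le_D hθ t) (B.le_D hθ t) (A.l_le hθ s)
    ((A.subset_D s).trans (A.D_mono hst))
  rw [image_gens h.base fun w hw => h.pt w (hst hw)] at h1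
  exact h1

theorem exists_good_empty (hθ : X.Adm3 θ) : ∃ f : M → N, Good A B ∅ f := by
  classical
  have hne : Nonempty q.M := by
    rw [← mk_ne_zero_iff, q.card]
    exact (aleph0_pos.trans_le (X.hK.1.trans hθ.lt.le)).ne'
  obtain ⟨m₀⟩ := hne
  have h1 : ∀ m, Function.extend A.i B.i (fun _ => B.i m₀) (A.i m) = B.i m :=
    fun m => A.i.injective.extend_apply _ _ m
  refine ⟨Function.extend A.i B.i (fun _ => B.i m₀), ?_, h1, fun w hw => absurd hw (notMem_empty _)⟩
  have h2 : ∀ {N : Type u} [L.Structure N] (B : Fam X q Ω N), B.D ∅ = B.i.toHom.range := by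
    intro N _ B
    unfold D
    rw [image_empty, union_empty]
    have h3 : (B.i.toHom.range : Set N) = range B.i := rfl
    rw [← h3]
    exact cl_eq_self X.K B.hi
  rw [h2 A, h2 B]
  exact isoS_range A.i B.i h1

/-- One point extensions of good maps. -/
theorem Good.exists_insert {A : Fam X q Ω M} {B : Fam X q Ω N} (hθ : X.Adm3 θ) {t : Set Ω}
    (ht : t.Finite) {f : M → N} (h : Good A B t f) {w : Ω} (hw : w ∉ t) :
    ∃ g : M → N, Good A B (insert w t) g ∧ ∀ x ∈ A.D t, g x = f x := by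
  obtain ⟨e, he⟩ := h.iso
  have hA := A.le_D hθ t
  have hB := B.le_D hθ t
  have hsubA : X.K.Emb (A.D t).subtype := AEC.emb_subtype.2 hA
  have hsubB : X.K.Emb (B.D t).subtype := AEC.emb_subtype.2 hB
  let k : q.M ↪[L] A.D t := A.i.codRestrict (A.D t) fun m => A.base_mem t m
  have hk1 : (A.D t).subtype.comp k = A.i := by
    ext x
    rfl
  have hk : X.K.Emb k := AEC.Emb.of_comp hsubA (by rw [hk1]; exact A.hi)
  let j₂ : A.D t ↪[L] N := (B.D t).subtype.comp e.toEmbedding
  have hj₂ : X.K.Emb j₂ := AEC.Emb.comp hsubB (AEC.Emb.of_equiv e hsubA.mem_left)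
  have hj₂a : ∀ x : A.D t, j₂ x = f x := fun x => (he x).symm
  have hk2 : j₂.comp k = B.i := by
    ext x
    exact (hj₂a _).trans (h.base x)
  have hwA : A.a w ∉ range (A.D t).subtype := by
    rintro ⟨x, hx⟩
    have hx2 : A.a w ∈ A.D t := hx ▸ x.2
    refine A.hind w (A.D_mono ?_ hx2)
    rintro y hy rfl
    exact hw hy
  have hwB : B.a w ∉ range j₂ := by
    rintro ⟨x, hx⟩
    have hx2 : B.a w ∈ B.D t := hx ▸ (e x).2
    refine B.hind w (B.D_mono ?_ hx2)
    rintro y hy rfl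
    exact hw hy
  obtain ⟨g, hg1, hg2, hg3⟩ := q.min (A.D t) M N k (A.D t).subtype j₂ (A.a w) (B.a w) hk
    (A.mk_D hθ ht) hsubA hj₂ hwA hwB (by rw [hk1]; exact A.ha w) (by rw [hk2]; exact B.ha w)
  have hgf : ∀ x ∈ A.D t, g x = f x := by
    intro x hx
    exact (hg2 ⟨x, hx⟩).trans (hj₂a _)
  have hDA : cl X.K (insert (A.a w) (range (A.D t).subtype)) = A.D (insert w t) := by
    have h1 : range (A.D t).subtype = (A.D t : Set M) := by
      ext x
      exact ⟨fun ⟨y, hy⟩ => hy ▸ y.2, fun hx => ⟨⟨x, hx⟩, rfl⟩⟩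
    rw [h1]
    unfold D
    rw [cl_insert_cl, image_insert_eq, union_insert]
  have hDB : cl X.K (insert (B.a w) (range j₂)) = B.D (insert w t) := by
    have h1 : range j₂ = (B.D t : Set N) := by
      ext x
      constructor
      · rintro ⟨y, hy⟩
        exact hy ▸ (e y).2
      · intro hx
        refine ⟨e.symm ⟨x, hx⟩, ?_⟩
        change ((e (e.symm ⟨x, hx⟩) : B.D t) : N) = x
        rw [Language.Equiv.apply_symm_apply]
    rw [h1]
    unfold D
    rw [cl_insert_cl, image_insert_eq, union_insert]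
  rw [hDA, hDB] at hg1
  refine ⟨g, ⟨hg1, fun m => ?_, ?_⟩, hgf⟩
  · rw [hgf _ (A.base_mem t m)]
    exact h.base m
  · rintro v (rfl | hv)
    · exact hg3
    · rw [hgf _ (A.pt_mem hv)]
      exact h.pt v hv

/-- The extension step. -/
theorem exists_step (hθ : X.Adm3 θ) {s : Set Ω} (hs : s.Finite) (F : Set Ω → M → N)
    (hF : ∀ t, t ⊂ s → Good A B t (F t))
    (hc : ∀ t t', t ⊆ t' → t' ⊂ s → ∀ x ∈ A.D t, F t' x = F t x) :
    ∃ f : M → N, Good A B s f ∧ ∀ t, t ⊂ s → ∀ x ∈ A.D t, f x = F t x := by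
  rcases s.eq_empty_or_nonempty with rfl | ⟨w, hw⟩
  · obtain ⟨f, hf⟩ := exists_good_empty A B hθ
    exact ⟨f, hf, fun t ht => absurd (empty_subset t) ht.2⟩
  have hts : s \ {w} ⊂ s := sdiff_singleton_ssubset.2 hw
  obtain ⟨g, hg, hgF⟩ := (hF _ hts).exists_insert hθ (hs.subset hts.subset) (w := w)
    (fun h => h.2 rfl)
  rw [insert_sdiff_self_of_mem hw] at hg
  by_cases hs2 : s = {w}
  · refine ⟨g, hg, fun t ht => ?_⟩
    have : t = s \ {w} := by
      rw [hs2] at ht ⊢
      rw [ssubset_singleton_iff.1 ht, Set.sdiff_self]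
    rw [this]
    exact hgF
  -- at least two points
  have hn : 2 ≤ #s := by
    obtain ⟨v, hv, hvw⟩ : ∃ v ∈ s, v ≠ w := by
      by_contra h
      push Not at h
      exact hs2 (eq_singleton_iff_unique_mem.2 ⟨hw, h⟩)
    rw [two_le_iff]
    exact ⟨⟨v, hv⟩, ⟨w, hw⟩, fun h => hvw (congrArg Subtype.val h)⟩
  have hgD : ∀ t, t ⊆ s → Good A B t g := fun t ht => hg.restrict hθ ht
  obtain ⟨g', hg'1, hg'2, hg'3⟩ := hg.iso.exists_inv (A.a w)
  have hg'i : ∀ m, g' (B.i m) = A.i m := fun m => by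
    rw [← hg.base m, hg'2 _ (A.base_mem s m)]
  have hg'a : ∀ v ∈ s, g' (B.a v) = A.a v := fun v hv => by
    rw [← hg.pt v hv, hg'2 _ (A.pt_mem hv)]
  have hg' : Good B A s g' := ⟨hg'1, hg'i, hg'a⟩
  have hfin : Finite s := hs
  have hss : ∀ r : Set s, r ≠ Set.univ → (Subtype.val '' r : Set Ω) ⊂ s := by
    intro r hr
    refine ssubset_of_subset_of_ne ?_ ?_
    · rintro _ ⟨y, -, rfl⟩
      exact y.2
    · intro h
      refine hr (eq_univ_of_forall fun y => ?_)
      obtain ⟨z, hz, hzy⟩ : (y : Ω) ∈ (Subtype.val '' r : Set Ω) := by rw [h]; exact y.2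
      rwa [← Subtype.ext hzy]
  let a : s → M := fun m => A.a m
  have hfc : ∀ r : Set s, cl X.K (range A.i ∪ a '' r) = A.D (Subtype.val '' r) := by
    intro r
    unfold D
    rw [image_image]
  have hgr : ∀ r : Set s, r ≠ Set.univ → Good A A (Subtype.val '' r)
      (fun x => g' (F (Subtype.val '' r) x)) := by
    intro r hr
    have h1 := hF _ (hss r hr)
    have h2 := hg'.restrict hθ (hss r hr).subset
    refine ⟨h2.iso.comp h1.iso, fun m => ?_, fun v hv => ?_⟩
    · rw [h1.base, hg'i]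
    · rw [h1.pt v hv, h2.pt v hv]
  obtain ⟨ε, hε1, hε2⟩ := q.nu hθ A.hi hn (a := a) (fun m => A.ha m) (fun m h => by
    refine A.hind m (cl_mono X.K (union_subset_union_right _ ?_) h)
    rintro _ ⟨y, hy, rfl⟩
    exact ⟨y, fun hym => hy (Subtype.ext hym), rfl⟩) (fun r x => g' (F (Subtype.val '' r) x))
    (fun r hr => by rw [hfc]; exact (hgr r hr).iso) (fun r hr => (hgr r hr).base)
    (fun r hr m hm => (hgr r hr).pt m ⟨m, hm, rfl⟩) (fun r r' hrr hr' x hx => by
      rw [hfc] at hx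
      rw [hc _ _ (image_mono hrr) (hss r' hr') x hx])
  have hra : cl X.K (range A.i ∪ range a) = A.D s := by
    rw [← image_univ (f := a), hfc, image_univ, Subtype.range_coe]
  rw [hra] at hε1
  have hface : ∀ t, t ⊂ s → ∀ x ∈ A.D t, g (ε x) = F t x := by
    intro t ht x hx
    have h1 : (Subtype.val '' (Subtype.val ⁻¹' t : Set s) : Set Ω) = t := by
      rw [Subtype.image_preimage_coe, inter_eq_right.2 ht.subset]
    have h2 : (Subtype.val ⁻¹' t : Set s) ≠ Set.univ := by
      intro h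
      rw [h, image_univ, Subtype.range_coe] at h1
      exact ht.ne h1.symm
    have h3 := hε2 _ h2 x (by rw [hfc, h1]; exact hx)
    rw [h3]
    simp only [h1]
    exact hg'3 _ (B.D_mono ht.subset ((hF t ht).iso.mem hx))
  refine ⟨fun x => g (ε x), ⟨hg.iso.comp hε1, fun m => ?_, fun v hv => ?_⟩, hface⟩
  · rw [hface _ hts _ (A.base_mem _ m)]
    exact (hF _ hts).base m
  · by_cases hvw : v = w
    · obtain ⟨v', hv', hvw'⟩ : ∃ v ∈ s, v ≠ w := by
        by_contra h
        push Not at h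
        exact hs2 (eq_singleton_iff_unique_mem.2 ⟨hw, h⟩)
      have h4 : s \ {v'} ⊂ s := sdiff_singleton_ssubset.2 hv'
      have h5 : v ∈ s \ {v'} := ⟨hv, fun h => hvw' (h.symm.trans hvw)⟩
      rw [hface _ h4 _ (A.pt_mem h5)]
      exact (hF _ h4).pt v h5
    · have h5 : v ∈ s \ {w} := ⟨hv, hvw⟩
      rw [hface _ hts _ (A.pt_mem h5)]
      exact (hF _ hts).pt v h5

end Fam

end Ctx

end Vale.Agent.P307.R2.H301
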