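import Vale.Agent.P307.R2.H301.Nvp
import Vale.Agent.P307.R2.H301.Ex

set_option linter.unusedSectionVars false

universe u v w

open FirstOrder Cardinal Set

namespace Vale.Agent.P307.R2.H301

open Vale.Agent.P307 Vale.Agent.P307.H304 Vale.Agent.P307.R2.H287 Language.Structure
  Language.Substructure

variable {L : Language.{u, u}} {X : Ctx L} {θ : Cardinal.{u}}
variable {M N P : Type u} [L.Structure M] [L.Structure N] [L.Structure P]

namespace Ctx

theorem cl_insert_cl (K : AEC L) (A : Set N) (x : N) :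
    cl K (insert x (cl K A : Set N)) = cl K (insert x A) := by
  apply le_antisymm
  · refine le_sInf fun S hS => sInf_le ⟨hS.1, ?_⟩
    rw [Set.insert_subset_iff]
    exact ⟨hS.2 (mem_insert _ _), cl_le K hS.1 ((subset_insert _ _).trans hS.2)⟩
  · exact cl_mono K (Set.insert_subset_insert (subset_cl K A))

theorem cl_subset_cl (K : AEC L) {A B : Set N} (h : A ⊆ cl K B) : cl K A ≤ cl K B := by
  refine le_sInf fun S hS => sInf_le ⟨hS.1, h.trans ?_⟩
  exact cl_le K hS.1 hS.2

/-- Members of size `θ` embed strongly in all larger members. -/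
theorem exists_emb_big (hθ : X.Adm θ) {A : Type u} [L.Structure A] (hA : X.K.mem A)
    (hAc : #A = θ) (hM : X.Big θ M) : ∃ i : A ↪[L] M, X.K.Emb i := by
  obtain ⟨S, hS, -, hSc⟩ := exists_sub_card X.hK hθ.lt.le hM.1 hM.2 ∅ (by simp)
  have hSm := (X.K.mem_of_le S hS).1
  obtain ⟨e, -⟩ := exists_iso_of_E hθ hA hSm hAc hSc (ι := PEmpty.{u + 1})
    (by rw [mk_pempty]; exact aleph0_pos.trans hθ.aleph0_lt)
    (E.empty hθ ⟨hA, hAc.ge⟩ ⟨hSm, hSc.ge⟩ PEmpty.elim PEmpty.elim)
  exact ⟨S.subtype.comp e.toEmbedding, AEC.Emb.comp (AEC.emb_subtype.2 hS)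
    (AEC.Emb.of_equiv e hA)⟩

/-- Independent sets over `B`. -/
def Indep (K : AEC L) (B I : Set N) : Prop := ∀ a ∈ I, a ∉ cl K (B ∪ I \ {a})

theorem Indep.mono {K : AEC L} {B I J : Set N} (h : Indep K B I) (hJ : J ⊆ I) : Indep K B J :=
  fun a ha ha' => h a (hJ ha) (cl_mono K (union_subset_union_right _ (sdiff_subset_sdiff_left hJ)) ha')

theorem mk_range_emb (i : M ↪[L] N) : #(range i) = #M := mk_range_eq _ i.injective

/-- There is a maximal independent set of realizations of the minimal type. -/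
theorem MinPt.exists_basis (hθ : X.Adm3 θ) (q : MinPt X θ) {i : q.M ↪[L] N} (hi : X.K.Emb i) :
    ∃ I : Set N, (∀ a ∈ I, q.Real i a) ∧ Indep X.K (range i) I ∧
      ∀ c, q.Real i c → c ∈ cl X.K (range i ∪ I) := by
  have hl : X.l ≤ #(range i) := by
    rw [mk_range_emb, q.card]
    exact hθ.lt.le
  obtain ⟨I, hI⟩ := zorn_subset {I : Set N | (∀ a ∈ I, q.Real i a) ∧ Indep X.K (range i) I} (by
    intro c hc hch
    refine ⟨⋃₀ c, ⟨?_, ?_⟩, fun s hs => subset_sUnion_of_mem hs⟩
    · rintro a ⟨s, hs, ha⟩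
      exact (hc hs).1 a ha
    · rintro a ⟨s, hs, ha⟩ hcl
      rw [union_comm] at hcl
      obtain ⟨t, ht, htf, hat⟩ := exists_finite hi.mem_right hl hcl
      obtain ⟨s', hs', hts'⟩ : ∃ s' ∈ c, insert a t ⊆ s' :=
        DirectedOn.exists_mem_subset_of_finite_of_subset_sUnion ⟨s, hs⟩ hch.directedOn
          (htf.insert a) (Set.insert_subset_iff.2
            ⟨⟨s, hs, ha⟩, fun x hx => (ht hx).1⟩)
      refine (hc hs').2 a (hts' (mem_insert _ _)) (cl_mono X.K ?_ hat)
      rintro x (hx | hx)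
      · exact Or.inr ⟨hts' (mem_insert_of_mem _ hx), (ht hx).2⟩
      · exact Or.inl hx)
  refine ⟨I, hI.prop.1, hI.prop.2, fun c hc => ?_⟩
  by_contra hcn
  have hcI : c ∉ I := fun h => hcn (subset_cl X.K _ (Or.inr h))
  have h1 : insert c I ∈ {I : Set N | (∀ a ∈ I, q.Real i a) ∧ Indep X.K (range i) I} := by
    refine ⟨?_, ?_⟩
    · rintro a (rfl | ha)
      · exact hc
      · exact hI.prop.1 a ha
    · rintro a (rfl | ha) ha'
      · refine hcn (cl_mono X.K ?_ ha')
        refine union_subset_union_right _ ?_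
        rintro x ⟨hx | hx, hx2⟩
        · exact absurd hx hx2
        · exact hx
      · have hac : a ≠ c := fun h => hcI (h ▸ ha)
        refine hI.prop.2 a ha (q.exchange hθ hi (A := range i ∪ I \ {a}) subset_union_left hc ?_ ?_)
        · intro h2
          refine hcn (cl_mono X.K ?_ h2)
          rintro x (rfl | hx | hx)
          · exact Or.inr ha
          · exact Or.inl hx
          · exact Or.inr hx.1
        · refine cl_mono X.K ?_ ha'
          rintro x (hx | ⟨hx | hx, hx2⟩)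
          · exact Or.inr (Or.inl hx)
          · exact Or.inl hx
          · exact Or.inr (Or.inr ⟨hx, hx2⟩)
  exact hcI (hI.le_of_ge h1 (subset_insert _ _) (mem_insert _ _))

/-- A maximal independent set spans. -/
theorem MinPt.cl_basis (hθ : X.Adm3 θ) (q : MinPt X θ) {i : q.M ↪[L] N} (hi : X.K.Emb i)
    {I : Set N} (hI : ∀ c, q.Real i c → c ∈ cl X.K (range i ∪ I)) :
    cl X.K (range i ∪ I) = ⊤ := by
  have hN := hi.mem_right
  have hlθ : X.l ≤ θ := hθ.lt.le
  have hθ0 : ℵ₀ ≤ θ := X.hK.1.trans hlθ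
  have hr : #(range i) = θ := by rw [mk_range_emb, q.card]
  have hl : X.l ≤ #(range i) := hlθ.trans hr.ge
  have hle : ∀ A : Set N, range i ⊆ A → X.K.le (cl X.K A) := fun A hA =>
    le_cl hN (hl.trans (mk_le_mk_of_subset hA))
  by_contra hne
  obtain ⟨m, hm⟩ : ∃ m, m ∉ cl X.K (range i ∪ I) := by
    by_contra h
    push Not at h
    exact hne (eq_top_iff.2 fun x _ => h x)
  set C := cl X.K (range i ∪ I) with hC
  have hCle : X.K.le C := hle _ subset_union_left
  set Q := cl X.K (insert m (range i)) with hQ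
  have hQle : X.K.le Q := hle _ (subset_insert _ _)
  have hiQ : range i ⊆ Q := (subset_insert _ _).trans (subset_cl X.K _)
  have hiC : range i ⊆ C := subset_union_left.trans (subset_cl X.K _)
  have hmQ : m ∈ Q := subset_cl X.K _ (mem_insert _ _)
  have hQθ : #Q = θ := by
    apply le_antisymm
    · refine (mk_cl_le hN _).trans (add_le_of_le hθ0 ?_ hlθ)
      exact (mk_insert_le).trans (add_le_of_le hθ0 hr.le (one_le_aleph0.trans hθ0))
    · rw [← hr]
      exact mk_le_mk_of_subset hiQ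
  have hP : X.K.le (Q ⊓ C) := by
    have h1 : range i ⊆ ((Q ⊓ C : L.Substructure N) : Set N) := fun x hx => ⟨hiQ hx, hiC hx⟩
    have h2 : cl X.K ((Q ⊓ C : L.Substructure N) : Set N) = Q ⊓ C := by
      apply le_antisymm
      · exact le_inf (cl_le X.K hQle fun x hx => hx.1) (cl_le X.K hCle fun x hx => hx.2)
      · exact subset_cl X.K _
    rw [← h2]
    exact hle _ h1
  have hP' : X.K.le ((Q ⊓ C).comap Q.subtype.toHom) := X.K.coherence _ _ inf_le_left hP hQle
  have hsub : X.K.Emb Q.subtype := AEC.emb_subtype.2 hQle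
  let i₀ : q.M ↪[L] Q := i.codRestrict Q fun m => hiQ ⟨m, rfl⟩
  have hcomp : Q.subtype.comp i₀ = i := by
    ext x
    rfl
  have hi₀ : X.K.Emb i₀ := AEC.Emb.of_comp hsub (by rw [hcomp]; exact hi)
  obtain ⟨b, hb, hbr⟩ := q.nvp hθ hi₀ hQθ hP' (by
    rintro _ ⟨y, rfl⟩
    exact ⟨hiQ ⟨y, rfl⟩, hiC ⟨y, rfl⟩⟩) (by
    intro h
    have h3 : (⟨m, hmQ⟩ : Q) ∈ (Q ⊓ C).comap Q.subtype.toHom := by rw [h]; trivial
    exact hm h3.2)
  have hb2 : q.Real i (b : N) := by
    have h4 := GE.of_emb i₀ hi₀ (hlθ.trans q.card.ge) Q.subtype hsub b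
    rw [hcomp] at h4
    exact GE.trans hbr h4
  exact hb ⟨b.2, hI _ hb2⟩

/-- The size of a spanning set. -/
theorem MinPt.mk_basis (hθ : X.Adm3 θ) (q : MinPt X θ) {i : q.M ↪[L] N} (hi : X.K.Emb i)
    {I : Set N} (hI : cl X.K (range i ∪ I) = ⊤) (hN : θ < #N) : #I = #N := by
  have hθ0 : ℵ₀ ≤ θ := X.hK.1.trans hθ.lt.le
  apply le_antisymm (mk_set_le I)
  by_contra hlt
  push Not at hlt
  have h1 : #N ≤ #(range i ∪ I : Set N) + X.l := by
    have h2 := mk_cl_le hi.mem_right (range i ∪ I)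
    rw [hI] at h2
    exact (mk_univ (α := N)).ge.trans h2
  have h2 : #(range i ∪ I : Set N) < #N := by
    refine (mk_union_le _ _).trans_lt (add_lt_of_lt (hθ0.trans hN.le) ?_ hlt)
    rw [mk_range_emb, q.card]
    exact hN
  exact absurd h1 (not_le.2 (add_lt_of_lt (hθ0.trans hN.le) h2 (hθ.lt.trans hN)))

end Ctx

end Vale.Agent.P307.R2.H301
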