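import Vale.Agent.P307.R2.H672.LimX

/-!
Continuation of convergent sequences, over the trace of a set into which the small pieces of the
boundary are reflected.
-/

set_option linter.unusedSectionVars false

universe u v w

open FirstOrder Cardinal Set

namespace Vale.Agent.P307.R2.H672

open Vale.Agent.P307 Vale.Agent.P307.H304 Vale.Agent.P307.R2.H287 Vale.Agent.P307.R2.H1
  Vale.Agent.P307.R2.H806 Vale.Agent.P307.R2.H971 Vale.Agent.P307.R2.H804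
  Language.Structure Language.Substructure
open Vale.Agent.P307.R2.H541 Vale.Agent.P307.R2.H541.PG Vale.Agent.P307.R2.H533
  Vale.Agent.P307.R2.H650 Vale.Agent.P307.R2.H83 Vale.Agent.P307.R2.H427
open Vale.Agent.P307.R2.H514 (tH)

open scoped Classical

variable {ι : Type v} {L : Language.{u, u}} {K : AEC L} {ℓ θ σ₀ ν μ ρ : Cardinal.{u}}
  {κf α : Cardinal.{u} → Cardinal.{u}} {C : Type u} [L.Structure C]

section

variable (h₀ : BasePt K ℓ κf α θ) (hK : K.IsLS ℓ)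
  (hunb : ∀ ν, ν < κf ν ∧ K.CategoricalIn (κf ν)) (hst : Stab K ℓ α (H287.thr κf))
  (hCm : K.mem C) (hs : Sat K θ C) (hCc : #C = Order.succ θ)

include h₀ hK hunb hst hCm hs hCc

/-- **Continuation of convergent sequences**, over the trace of a set into which the pieces of size
at most `ρ` of the boundary are reflected over its own pieces of size at most `ρ`. -/
theorem pg_hlimT (hFr : FreeM (pg h₀ hK hunb hst hCm hs hCc)) {s : Finset ι}
    (hMd : ∀ j, 1 ≤ j → j + 1 < s.card → Md (pg h₀ hK hunb hst hCm hs hCc) ι j)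
    (hTX : ∀ w ∈ s.ssubsets, w.Nonempty → ∀ A : Finset ι → Set C,
      IFam (pg h₀ hK hunb hst hCm hs hCc) A w.ssubsets →
      IRef (pg h₀ hK hunb hst hCm hs hCc) A w.ssubsets →
      ∀ σ < θ, ∀ ρ < θ, (pg h₀ hK hunb hst hCm hs hCc).TmL σ (tH (max ℓ σ)) ρ (ibd A w))
    (hσ₀ : σ₀ < θ) (hFU : ∀ w ∈ s.ssubsets, w.Nonempty → ∀ A : Finset ι → Set C,
      IFam (pg h₀ hK hunb hst hCm hs hCc) A w.ssubsets →
      H83.IRefL (pg h₀ hK hunb hst hCm hs hCc) σ₀ A w.ssubsets →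
      IRef (pg h₀ hK hunb hst hCm hs hCc) A w.ssubsets)
    {A : Finset ι → Set C}
    (hA : IFam (pg h₀ hK hunb hst hCm hs hCc) A s.ssubsets)
    (hR : IRef (pg h₀ hK hunb hst hCm hs hCc) A s.ssubsets)
    (hl : Lvl ℓ κf α ν μ ρ θ) {T : Set C}
    (hT : ∀ q ⊆ T, #q ≤ ρ → ∀ y : Set C, #y ≤ ρ → ∃ t ∈ autG L C, (∀ x ∈ q, t x = x) ∧
      ∀ v ∈ s.ssubsets, ∀ a ∈ y, a ∈ A v → t a ∈ A v ∩ T)
    {B' : Set C} (hB : B' ⊆ ibd A s) (hBc : #B' < θ) {x₀ : Set C} (hx₀ : x₀ ⊆ ibd A s)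
    (hx₀c : #x₀ ≤ μ) :
    ∃ (Ξ : Type u) (_ : LinearOrder Ξ) (_ : Nonempty Ξ) (b : Ξ → x₀ → C) (x' : x₀ → C),
      #Ξ ≤ ρ ∧ (∀ ξ i, b ξ i ∈ ibd A s ∩ T) ∧ (∀ i, x' i ∈ ibd A s) ∧
      Conv L μ b (fun i => (i : C)) (ibd A s ∩ T) ∧ Conv L μ b x' B' := by
  have hμ := hl.hμ hK
  choose v hv hxv using fun i : x₀ => hx₀ i.2
  obtain ⟨b, x', h1, h2, h3, h4⟩ := pg_limX h₀ hK hunb hst hCm hs hCc hFr hMd hTX hσ₀ hFU hA hR
    hl.hℓμ (hl.opB.trans_lt hl.lt) hl.thr'' (D := ibd A s ∩ T) inter_subset_left hB hBc hx₀c v hv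
    (fun i => (i : C)) (by
      intro q hq hqc
      obtain ⟨g, hg, h1, h2⟩ := hT q (hq.trans inter_subset_right) (hqc.trans hl.limB) x₀
        (hx₀c.trans (hl.μρ hunb))
      refine ⟨g, hg, h1, fun i => ?_⟩
      obtain ⟨h3, h4⟩ := h2 (v i) (Finset.mem_ssubsets.2 (hv i)) i i.2 (hxv i)
      exact ⟨h3, ⟨⟨v i, hv i, h3⟩, h4⟩⟩)
  have hne : Nonempty (SuccTy (opB κf μ)) := by
    obtain ⟨x, -⟩ := dir_succTy (hμ.trans (le_opB hunb μ)) ∅ (by simp)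
    exact ⟨x⟩
  exact ⟨SuccTy (opB κf μ), inferInstance, hne, b, x', (mk_succTy _).trans_le hl.opB,
    fun ξ i => (h1 ξ i).2, fun i => ⟨v i, hv i, h2 i⟩, h3, h4⟩

end

end Vale.Agent.P307.R2.H672
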