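import Vale.Agent.P307.R2.H672.LimC
import Vale.Agent.P307.R2.H533.LimChart
import Vale.Agent.P307.R2.H914.JrPg
import Vale.Agent.P307.R2.H804.Descent

/-!
Continuation of convergent sequences over an arbitrary boundary.
-/

set_option linter.unusedSectionVars false

universe u v w

open FirstOrder Cardinal Set

namespace Vale.Agent.P307.R2.H672

open Vale.Agent.P307 Vale.Agent.P307.H304 Vale.Agent.P307.R2.H287 Vale.Agent.P307.R2.H1
  Vale.Agent.P307.R2.H806 Vale.Agent.P307.R2.H971 Vale.Agent.P307.R2.H804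
  Language.Structure Language.Substructure
open Vale.Agent.P307.R2.H541 Vale.Agent.P307.R2.H541.PG Vale.Agent.P307.R2.H533
  Vale.Agent.P307.R2.H650 Vale.Agent.P307.R2.H83 Vale.Agent.P307.R2.H427
open Vale.Agent.P307.R2.H476 (IsUnifW exists_limW)
open Vale.Agent.P307.R2.H68 (part)
open Vale.Agent.P307.R2.H514 (tH)

open scoped Classical

variable {ι : Type v} {L : Language.{u, u}} {K : AEC L} {ℓ θ σ₀ ν : Cardinal.{u}}
  {κf α : Cardinal.{u} → Cardinal.{u}} {C : Type u} [L.Structure C]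

section

variable (h₀ : BasePt K ℓ κf α θ) (hK : K.IsLS ℓ)
  (hunb : ∀ ν, ν < κf ν ∧ K.CategoricalIn (κf ν)) (hst : Stab K ℓ α (H287.thr κf))
  (hCm : K.mem C) (hs : Sat K θ C) (hCc : #C = Order.succ θ)

include h₀ hK hunb hst hCm hs hCc

/-- **Continuation of convergent sequences** over an arbitrary boundary: a small tuple `x₀` of the
boundary which is reflected, face by face, into the subset `D` over the small pieces of `D` is the
limit over `D` of a sequence in `D`, which has, face by face, a limit `x'` over an arbitrary small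
subset `B'` of the boundary. -/
theorem pg_limX (hFr : FreeM (pg h₀ hK hunb hst hCm hs hCc)) {s : Finset ι}
    (hMd : ∀ j, 1 ≤ j → j + 1 < s.card → Md (pg h₀ hK hunb hst hCm hs hCc) ι j)
    (hTX : ∀ w ∈ s.ssubsets, w.Nonempty → ∀ A : Finset ι → Set C,
      IFam (pg h₀ hK hunb hst hCm hs hCc) A w.ssubsets →
      IRef (pg h₀ hK hunb hst hCm hs hCc) A w.ssubsets →
      ∀ σ < θ, ∀ ρ < θ, (pg h₀ hK hunb hst hCm hs hCc).TmL σ (tH (max ℓ σ)) ρ (ibd A w))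
    (hσ₀ : σ₀ < θ) (hFU : ∀ w ∈ s.ssubsets, w.Nonempty → ∀ A : Finset ι → Set C,
      IFam (pg h₀ hK hunb hst hCm hs hCc) A w.ssubsets →
      H83.IRefL (pg h₀ hK hunb hst hCm hs hCc) σ₀ A w.ssubsets →
      IRef (pg h₀ hK hunb hst hCm hs hCc) A w.ssubsets)
    {A : Finset ι → Set C}
    (hA : IFam (pg h₀ hK hunb hst hCm hs hCc) A s.ssubsets)
    (hR : IRef (pg h₀ hK hunb hst hCm hs hCc) A s.ssubsets)
    (hℓν : ℓ ≤ ν) (hop : Order.succ (opB κf ν) < θ) (hthr : H287.thr κf (opB κf ν) ≤ θ)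
    {D B' : Set C} (hD : D ⊆ ibd A s) (hB : B' ⊆ ibd A s) (hBc : #B' < θ)
    {κ : Type u} (hκ : #κ ≤ ν) (v : κ → Finset ι) (hv : ∀ i, v i ⊂ s) (x₀ : κ → C)
    (hJ : ∀ q ⊆ D, #q ≤ limB κf ν → ∃ g ∈ autG L C, (∀ x ∈ q, g x = x) ∧
      ∀ i, g (x₀ i) ∈ A (v i) ∩ D) :
    ∃ (b' : SuccTy (opB κf ν) → κ → C) (x' : κ → C), (∀ ξ i, b' ξ i ∈ A (v i) ∩ D) ∧
      (∀ i, x' i ∈ A (v i)) ∧ Conv L ν b' x₀ D ∧ Conv L ν b' x' B' := by
  have hM := pg_calc h₀ hK hunb hst hCm hs hCc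
  have hBg := pg_big h₀ hK hunb hst hCm hs hCc
  have hθ : ℵ₀ ≤ θ := aleph0_le_pt h₀ hK
  have hνo : ν ≤ opB κf ν := le_opB hunb ν
  have hνθ : ν < θ := (hνo.trans (Order.le_succ _)).trans_lt hop
  have hν : ℵ₀ ≤ ν := hK.1.trans hℓν
  have hcard : ∀ v ∈ s.ssubsets, v.card < s.card := fun v hv =>
    Finset.card_lt_card (Finset.mem_ssubsets.1 hv)
  have hG : ∀ v ∈ s.ssubsets, 2 ≤ v.card → GDI (pg h₀ hK hunb hst hCm hs hCc) ι v.card :=
    fun v hv _ => gdi_of_md hM hBg.ls v.card fun j hj hjv => hMd j hj (by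
      have := hcard v hv
      omega)
  obtain ⟨τ', hτ', hlel⟩ := exists_lel_coh (M := pg h₀ hK hunb hst hCm hs hCc) hM hBg
    (pg_up h₀ hK hunb hst hCm hs hCc) (H := fun σ => tH (max ℓ σ))
    (fun σ hσ => tH_lt h₀ hst hσ) s.ssubsets hA.down hG ν hνθ
  obtain ⟨σ, hσd⟩ : ∃ σ, σ = max (max σ₀ τ') (max (Order.succ (opB κf ν)) #B') := ⟨_, rfl⟩
  have hσθ : σ < θ := by
    rw [hσd]
    exact max_lt (max_lt hσ₀ hτ') (max_lt hop hBc)
  have hσ0σ : σ₀ ≤ σ := by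
    rw [hσd]
    exact (le_max_left _ _).trans (le_max_left _ _)
  have hτ'σ : τ' ≤ σ := by
    rw [hσd]
    exact (le_max_right _ _).trans (le_max_left _ _)
  have hopσ : Order.succ (opB κf ν) ≤ σ := by
    rw [hσd]
    exact (le_max_left _ _).trans (le_max_right _ _)
  have hBσ : #B' ≤ σ := by
    rw [hσd]
    exact (le_max_right _ _).trans (le_max_right _ _)
  have hνσ : ν ≤ σ := (hνo.trans (Order.le_succ _)).trans hopσ
  have hℓσ : ℓ ≤ σ := hℓν.trans hνσ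
  obtain ⟨c, hc⟩ := exists_chart h₀ hK hunb hst hCm hs hCc hℓσ hσθ s.ssubsets
  have hgen := c.stdGen h₀ hK hunb hst hCm hs hCc hℓσ hσθ hc fun v hv hv0 A' hA' hR' =>
    hFU v hv hv0 A' hA' (hR'.level hσ0σ)
  have hXc : #(ibd A s) ≤ (pg h₀ hK hunb hst hCm hs hCc).χ := by
    rw [← iun_ssubsets]
    exact card_iun fun v hv => ((pg h₀ hK hunb hst hCm hs hCc).S_card (hA.mem v hv)).le
  obtain ⟨m, P, r, Q, b, φ, h1, h2, h3, h4, h5⟩ := exists_scaf hM hBg.ls hFr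
    (fun j hj v hv hjv => hMd j hj (by
      have := hcard v hv
      omega)) hgen hA hR hXc
  have hLE := hlel (P m) (c.St b) φ h2 h3 (c.ifam h₀ hK hunb hst hCm hs hCc hℓσ hσθ b hA.down)
    ((c.irefLev h₀ hK hunb hst hCm hs hCc hℓσ hσθ b _).level hτ'σ)
    (fun w hw hw0 σ' hσ' ρ' hρ' => hTX w hw hw0 (P m) (h2.sub (down_ssubsets hw0)
      (H533.ssubsets_sub hA.down hw)) (h3.mono (H533.ssubsets_sub hA.down hw)) σ' hσ' ρ' hρ') h5
  have hiun : iun A s.ssubsets = ibd A s := iun_ssubsets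
  have hE : H287.thr κf ν ≤ #c.E.N := by
    rw [mk_congr c.e.toEquiv, hCc]
    exact (((thr_le_opB κf ν).trans (le_thr hunb _)).trans hthr).trans (Order.le_succ θ)
  refine lim_core h₀ hK hunb hst hCm hs hCc hℓν hνθ hthr c b (F := s.ssubsets) (P := P m)
    (N := ibd A s) h1.le (umap s.ssubsets (P m) φ) hLE (fun v hv => ?_) h4
    (by rw [hiun]; exact hD) (by rw [hiun]; exact hB) hB hBc hκ v
    (fun i => Finset.mem_ssubsets.2 (hv i)) x₀ hJ fun a ha B'' hB'' => ?_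
  · rw [← h5.img v hv]
    exact image_congr fun a ha => (h5.umap_eq h2 h3 hv ha).symm
  · obtain ⟨t, w, h6, h7, h8⟩ := ha
    exact chart_exists_limit hK hunb c hσθ.le hℓν hνσ hE ((dir_succTy (hν.trans hνo)).mono hνo)
      ((mk_succTy _).trans_le hopσ) b v ⟨t, w, h6, h8, h7⟩ hκ B'' (hB''.trans hBσ)

/-- **Continuation of convergent sequences**, over the closed traces. -/
theorem pg_hlim (hFr : FreeM (pg h₀ hK hunb hst hCm hs hCc)) {s : Finset ι}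
    (hMd : ∀ j, 1 ≤ j → j + 1 < s.card → Md (pg h₀ hK hunb hst hCm hs hCc) ι j)
    (hTX : ∀ w ∈ s.ssubsets, w.Nonempty → ∀ A : Finset ι → Set C,
      IFam (pg h₀ hK hunb hst hCm hs hCc) A w.ssubsets →
      IRef (pg h₀ hK hunb hst hCm hs hCc) A w.ssubsets →
      ∀ σ < θ, ∀ ρ < θ, (pg h₀ hK hunb hst hCm hs hCc).TmL σ (tH (max ℓ σ)) ρ (ibd A w))
    (hσ₀ : σ₀ < θ) (hFU : ∀ w ∈ s.ssubsets, w.Nonempty → ∀ A : Finset ι → Set C,
      IFam (pg h₀ hK hunb hst hCm hs hCc) A w.ssubsets →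
      H83.IRefL (pg h₀ hK hunb hst hCm hs hCc) σ₀ A w.ssubsets →
      IRef (pg h₀ hK hunb hst hCm hs hCc) A w.ssubsets)
    {A : Finset ι → Set C}
    (hA : IFam (pg h₀ hK hunb hst hCm hs hCc) A s.ssubsets)
    (hR : IRef (pg h₀ hK hunb hst hCm hs hCc) A s.ssubsets)
    {μ ρ τ₁ : Cardinal.{u}} (hτ₁θ : τ₁ < θ) (hl : Lvl ℓ κf α ν μ ρ τ₁) {H : Set C}
    (hJ : (pg h₀ hK hunb hst hCm hs hCc).JR τ₁ A s.ssubsets H (ibd A s ∩ H))
    {B' : Set C} (hB : B' ⊆ ibd A s) (hBc : #B' < θ) {x₀ : Set C} (hx₀ : x₀ ⊆ ibd A s)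
    (hx₀c : #x₀ ≤ μ) :
    ∃ (Ξ : Type u) (_ : LinearOrder Ξ) (_ : Nonempty Ξ) (b : Ξ → x₀ → C) (x' : x₀ → C),
      #Ξ ≤ ρ ∧ (∀ ξ i, b ξ i ∈ ibd A s ∩ H) ∧ (∀ i, x' i ∈ ibd A s) ∧
      Conv L μ b (fun i => (i : C)) (ibd A s ∩ H) ∧ Conv L μ b x' B' := by
  have hμ := hl.hμ hK
  have hμτ : μ < τ₁ := hl.μΛ hunb
  choose v hv hxv using fun i : x₀ => hx₀ i.2
  have hiun : iun A s.ssubsets = ibd A s := iun_ssubsets
  obtain ⟨b, x', h1, h2, h3, h4⟩ := pg_limX h₀ hK hunb hst hCm hs hCc hFr hMd hTX hσ₀ hFU hA hR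
    hl.hℓμ ((hl.opB.trans_lt hl.lt).trans hτ₁θ) (hl.thr''.trans hτ₁θ.le)
    (D := ibd A s ∩ H) inter_subset_left hB hBc hx₀c v hv (fun i => (i : C)) (by
      intro q hq hqc
      obtain ⟨g, hg, h1, h2⟩ := hJ x₀ (by rw [hiun]; exact hx₀) (hx₀c.trans_lt hμτ) q hq
        (hqc.trans_lt (hl.limB.trans_lt hl.lt))
      refine ⟨g, hg, h1, fun i => ?_⟩
      obtain ⟨h3, h4⟩ := h2 (v i) (Finset.mem_ssubsets.2 (hv i)) i i.2 (hxv i)
      exact ⟨h3, ⟨⟨v i, hv i, h3⟩, h4⟩⟩)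
  have hne : Nonempty (SuccTy (opB κf μ)) := by
    obtain ⟨x, -⟩ := dir_succTy (hμ.trans (le_opB hunb μ)) ∅ (by simp)
    exact ⟨x⟩
  exact ⟨SuccTy (opB κf μ), inferInstance, hne, b, x', (mk_succTy _).trans_le hl.opB,
    fun ξ i => (h1 ξ i).2, fun i => ⟨v i, hv i, h2 i⟩, h3, h4⟩

end

end Vale.Agent.P307.R2.H672
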