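import Vale.Agent.P307.R2.H732.Shr5
import Vale.Agent.P307.R2.H478.ShrL

/-!
Size reduction of isolating sets, by means of an arbitrary small reflecting set.
-/

set_option linter.unusedSectionVars false

universe u v w

open FirstOrder Cardinal Set Function

namespace Vale.Agent.P307.R2.H672

section abs

open Vale.Agent.P307.R2.H541 Vale.Agent.P307.R2.H541.PG Vale.Agent.P307.R2.H478

variable {C : Type u} {M : PG C} {X B B' D T₁ e : Set C} {μ μ' τ : Cardinal.{u}}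

/-- **Shrinking isolating sets.** The tuple `(g e, x₀)` has a copy `(v, w)` over each piece of `T₁`
of size at most `μ'`, which is reflected uniformly into a small subset of `T₁` over the
pieces of `B' ∪ D` of size at most `μ'`; and the small pieces `x₀` of `X` have copies in `X` which
have over the small pieces of `B'` the type which a sequence in `D` converging to `x₀` has. -/
theorem isol_shrinkT (hDT : D ⊆ T₁) (heT : e ⊆ T₁) (he : #e ≤ μ') (hτ₀ : ℵ₀ ≤ τ) (hμ₀ : ℵ₀ ≤ μ')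
    (hμτ : μ' ≤ τ) (hμ : μ < M.χ)
    (hrefl : ∀ y ⊆ B', #y ≤ μ' → ∀ q ⊆ T₁, #q ≤ τ →
      ∃ t ∈ M.G, (∀ x ∈ q, t x = x) ∧ ∀ x ∈ y, t x ∈ D)
    (hfree : ∀ g ∈ M.G, (∀ x ∈ D, g x = x) → ∀ x₀ ⊆ X, #x₀ ≤ μ → ∃ v w : C → C,
      (∀ p ⊆ T₁, #p ≤ μ' → ∃ k ∈ M.G, (∀ x ∈ p, k x = x) ∧ (∀ x ∈ e, k (g x) = v x) ∧
        ∀ x ∈ x₀, k x = w x) ∧
      ∃ q₀ ⊆ T₁, #q₀ ≤ τ ∧ ∀ q ⊆ B' ∪ D, #q ≤ μ' →
        ∃ s ∈ M.G, (∀ x ∈ q, s x = x) ∧ (∀ x ∈ e, s (v x) ∈ q₀) ∧ ∀ x ∈ x₀, s (w x) ∈ q₀)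
    (hlim : ∀ x₀ ⊆ X, #x₀ ≤ μ → ∃ x' : C → C, (∀ x ∈ x₀, x' x ∈ X) ∧ ∃ q₁ ⊆ D, #q₁ ≤ τ ∧
      ∀ y₁ ⊆ B', #y₁ ≤ μ' → ∀ y₂ ⊆ D, #y₂ ≤ μ' → ∃ s₁ ∈ M.G, ∃ s₂ ∈ M.G, (∀ y ∈ y₁, s₁ y = y) ∧
        (∀ y ∈ y₂, s₂ y = y) ∧ ∀ x ∈ x₀, s₁ (x' x) = s₂ x ∧ s₂ x ∈ q₁)
    (hTB : ∀ g ∈ M.G, (∀ y ⊆ B', #y ≤ μ' → ∃ h ∈ M.G, (∀ x ∈ y, h x = x) ∧ ∀ x ∈ e, h x = g x) →
      ∃ h ∈ M.G, (∀ x ∈ B, h x = x) ∧ ∀ x ∈ e, h x = g x)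
    (hTB' : ∀ x₀ ⊆ X, #x₀ ≤ μ → ∀ g ∈ M.G, (∀ y ⊆ B', #y ≤ μ' →
      ∃ h ∈ M.G, (∀ x ∈ y, h x = x) ∧ ∀ x ∈ x₀, h x = g x) →
      ∃ h ∈ M.G, (∀ x ∈ B, h x = x) ∧ ∀ x ∈ x₀, h x = g x)
    (hTX : ∀ g ∈ M.G, (∀ y ⊆ X, #y ≤ μ → ∃ h ∈ M.G, (∀ x ∈ y, h x = x) ∧ ∀ x ∈ e, h x = g x) →
      ∀ A ⊆ X, #A < M.χ → ∃ h ∈ M.G, (∀ x ∈ A, h x = x) ∧ ∀ x ∈ e, h x = g x)
    (hB : M.Isol B X e) : M.Isol D X e := by
  have he' : #e ≤ τ := he.trans hμτ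
  intro g hg hgD A hA hAc
  refine hTX g hg (fun x₀ hx₀ hx₀c => ?_) A hA hAc
  obtain ⟨v, w, hvw, q₀, hq₀, hq₀c, hs⟩ := hfree g hg hgD x₀ hx₀ hx₀c
  obtain ⟨k, hk, hke, hkv, hkw⟩ := hvw e heT he
  -- the free copy has the same type as `e` over `B`
  obtain ⟨h₁, hh₁, h₁B, h₁e⟩ := hTB (k * g) (M.G.mul_mem hk hg) fun y hy hyc => by
    obtain ⟨t, ht, hte, htD, h, hh, hhy, hhe⟩ := exists_conj_of_refl (ι := e) hτ₀ hμ₀ hrefl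
      (fun i => v i) (fun i => g i) e hq₀ hq₀c (fun q hq hqc => by
        obtain ⟨s, hsG, hsq, hsv, -⟩ := hs q hq hqc
        exact ⟨s, hsG, hsq, fun i => hsv i i.2⟩) (fun p hp hpc => by
        obtain ⟨k', hk', hk'p, hk'v, -⟩ := hvw p (hp.trans hDT) hpc
        exact ⟨k', hk', hk'p, fun i => hk'v i i.2⟩) heT he' hy hyc
    refine ⟨h⁻¹ * g * t, M.G.mul_mem (M.G.mul_mem (M.G.inv_mem hh) hg) ht, fun x hx => ?_,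
      fun x hx => ?_⟩
    · rw [Equiv.Perm.mul_apply, Equiv.Perm.mul_apply, hgD _ (htD x hx), ← hhy x hx, inv_ap]
    · rw [Equiv.Perm.mul_apply, Equiv.Perm.mul_apply, hte x hx, Equiv.Perm.mul_apply, hkv x hx,
        ← hhe ⟨x, hx⟩, inv_ap]
  -- the free copy of `x₀` has over `B` the type of a piece of `X`
  obtain ⟨x', hx'X, q₁, hq₁, hq₁c, hq⟩ := hlim x₀ hx₀ hx₀c
  obtain ⟨l, hl, hlB, hlX⟩ : ∃ l ∈ M.G, (∀ x ∈ B, l x = x) ∧ ∀ x ∈ x₀, l (w x) ∈ X := by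
    obtain ⟨s₁, hs₁, s₂, hs₂, -, -, hs₁₂⟩ := hq ∅ (empty_subset _) (by simp) ∅ (empty_subset _) (by simp)
    -- `k * (s₂⁻¹ * s₁)` maps `x'` to `w`
    have h0 : ∀ x ∈ x₀, (k * (s₂⁻¹ * s₁)) (x' x) = w x := fun x hx => by
      rw [Equiv.Perm.mul_apply, Equiv.Perm.mul_apply, (hs₁₂ x hx).1, inv_ap, hkw x hx]
    obtain ⟨h, hh, hhB, hhx⟩ := hTB' (x' '' x₀) (by
      rintro _ ⟨x, hx, rfl⟩
      exact hx'X x hx) (mk_image_le.trans hx₀c) (k * (s₂⁻¹ * s₁))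
      (M.G.mul_mem hk (M.G.mul_mem (M.G.inv_mem hs₂) hs₁)) fun y hy hyc => by
      obtain ⟨t, ht, htb, htD, h, hh, hhy, hhw⟩ := exists_conj_of_refl (ι := x₀) hτ₀ hμ₀ hrefl
        (fun i => w i) (fun i => i) q₁ hq₀ hq₀c (fun q hq hqc => by
          obtain ⟨s, hsG, hsq, -, hsw⟩ := hs q hq hqc
          exact ⟨s, hsG, hsq, fun i => hsw i i.2⟩) (fun p hp hpc => by
          obtain ⟨k', hk', hk'p, -, hk'w⟩ := hvw p (hp.trans hDT) hpc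
          exact ⟨k', hk', hk'p, fun i => hk'w i i.2⟩) (hq₁.trans hDT) hq₁c hy hyc
      obtain ⟨r₁, hr₁, r₂, hr₂, hr₁y, hr₂y, hr⟩ := hq y hy hyc (t '' y) (by
        rintro _ ⟨x, hx, rfl⟩
        exact htD x hx) (mk_image_le.trans hyc)
      refine ⟨h⁻¹ * (r₂⁻¹ * t * r₁), M.G.mul_mem (M.G.inv_mem hh) (M.G.mul_mem (M.G.mul_mem
        (M.G.inv_mem hr₂) ht) hr₁), fun x hx => ?_, ?_⟩
      · rw [Equiv.Perm.mul_apply, Equiv.Perm.mul_apply, Equiv.Perm.mul_apply, hr₁y x hx,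
          fix_inv (hr₂y (t x) (mem_image_of_mem _ hx)), ← hhy x hx, inv_ap]
      · rintro _ ⟨x, hx, rfl⟩
        rw [h0 x hx, Equiv.Perm.mul_apply, Equiv.Perm.mul_apply, Equiv.Perm.mul_apply,
          (hr x hx).1, htb _ (hr x hx).2, inv_ap, Equiv.Perm.inv_eq_iff_eq]
        exact (hhw ⟨x, hx⟩).symm
    refine ⟨h⁻¹, M.G.inv_mem hh, fun x hx => fix_inv (hhB x hx), fun x hx => ?_⟩
    rw [← h0 x hx, ← hhx _ (mem_image_of_mem x' hx), inv_ap]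
    exact hx'X x hx
  have hlk : ((l * k : Equiv.Perm C) '' x₀) ⊆ X := by
    rintro _ ⟨x, hx, rfl⟩
    rw [Equiv.Perm.mul_apply, hkw x hx]
    exact hlX x hx
  have hlkc : #((l * k : Equiv.Perm C) '' x₀ : Set C) < M.χ := mk_image_le.trans_lt (hx₀c.trans_lt hμ)
  -- the free copy of `x₀` is reflected into `X`
  obtain ⟨h₂, hh₂, h₂A, h₂e⟩ := hB (l * h₁) (M.G.mul_mem hl hh₁) (fun x hx => by
    rw [Equiv.Perm.mul_apply, h₁B x hx, hlB x hx]) _ hlk hlkc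
  obtain ⟨h₃, hh₃, h₃A, h₃e⟩ := hB l hl hlB _ hlk hlkc
  refine ⟨(l * k)⁻¹ * (h₂ * h₃⁻¹) * (l * k), M.G.mul_mem (M.G.mul_mem
    (M.G.inv_mem (M.G.mul_mem hl hk)) (M.G.mul_mem hh₂ (M.G.inv_mem hh₃))) (M.G.mul_mem hl hk),
    fun x hx => ?_, fun x hx => ?_⟩
  · have h4 := h₂A _ (mem_image_of_mem (l * k : Equiv.Perm C) hx)
    have h5 := fix_inv (h₃A _ (mem_image_of_mem (l * k : Equiv.Perm C) hx))
    simp only [Equiv.Perm.mul_apply] at h4 h5 ⊢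
    rw [h5, h4, mul_inv_rev]
    simp only [Equiv.Perm.mul_apply]
    rw [inv_ap, inv_ap]
  · simp only [Equiv.Perm.mul_apply, mul_inv_rev]
    rw [hke x hx, ← h₃e x hx, inv_ap, h₂e x hx, Equiv.Perm.mul_apply, h₁e x hx,
      Equiv.Perm.mul_apply, inv_ap, inv_ap]

end abs

open Vale.Agent.P307 Vale.Agent.P307.H304 Vale.Agent.P307.R2.H287 Vale.Agent.P307.R2.H1
  Vale.Agent.P307.R2.H971 Vale.Agent.P307.R2.H804 Vale.Agent.P307.R2.H650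
  Vale.Agent.P307.R2.H541 Vale.Agent.P307.R2.H478 Language.Structure Language.Substructure

variable {L : Language.{u, u}} {K : AEC L} {ℓ θ μ ν ρ μ₀ μ₁ : Cardinal.{u}}
  {κf α : Cardinal.{u} → Cardinal.{u}} {C : Type u} [L.Structure C]

section

variable (h₀ : BasePt K ℓ κf α θ) (hK : K.IsLS ℓ)
  (hunb : ∀ ν, ν < κf ν ∧ K.CategoricalIn (κf ν)) (hst : Stab K ℓ α (H287.thr κf))
  (hCm : K.mem C) (hs : Sat K θ C) (hCc : #C = Order.succ θ)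

include h₀ hK hunb hst hCm hs hCc

/-- **The free copy**, over a reflecting set. -/
theorem exists_free_copyT (hl : Lvl ℓ κf α ν μ ρ θ) (hα : α ν ≤ μ) {N : L.Substructure C}
    (hN : K.le N) (hNc : #N = θ) {T : Set C} (hTr : Refl L ρ T) (hTN : T ⊆ N) {ι : Type u}
    (hι : #ι ≤ ν) (r : ι → C) :
    ∃ v : ι → C,
      (∀ p ⊆ T, #p ≤ ν → ∃ k ∈ autG L C, (∀ a ∈ p, k a = a) ∧ ∀ i, k (r i) = v i) ∧
      ∃ q₀ ⊆ T, #q₀ ≤ ρ ∧ ∀ q ⊆ (N : Set C), #q ≤ ν → ∃ s ∈ autG L C,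
        (∀ a ∈ q, s a = a) ∧ ∀ i, s (v i) ∈ q₀ := by
  classical
  have hμ := hl.hμ hK
  have hν : ℵ₀ ≤ ν := hK.1.trans hl.hℓ
  have hμρ := hl.μρ hunb
  obtain ⟨z, hz1, hz2⟩ := exists_free h₀ hK hunb hl hs N hN hNc (hι.trans hl.νμ) r hTN hTr
  refine ⟨z, ?_, ?_⟩
  · intro p hp hpc
    have hc : #(p ⊕ ι) ≤ ν := mk_sum_le' hν hpc hι
    have h1 := hz2 p (fun c => c) (hpc.trans hl.νμ) fun c => hp c.2
    have h2 := EqS.mono (hν.trans (hst ν hl.hℓ).1) hα h1 (hc.trans (hst ν hl.hℓ).1)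
    obtain ⟨s, hsG, hs'⟩ := exists_mem_autG h₀ hK hunb hst hCm hs hCc hl.hℓ
      (hl.νμ.trans_lt (hl.μΛ hunb)) hc _ _ h2.symm
    exact ⟨s, hsG, fun c hc => hs' (Sum.inl ⟨c, hc⟩), fun i => hs' (Sum.inr i)⟩
  · obtain ⟨a, ha1, ha2⟩ := hz1
    refine ⟨range fun q : SuccTy (opB κf μ) × ι => a q.1 q.2, ?_, ?_, ?_⟩
    · rintro _ ⟨q, rfl⟩
      exact ha1 _ _
    · refine mk_range_le.trans ?_
      exact mk_prod_le (hμ.trans hμρ) ((mk_succTy _).trans_le hl.opB)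
        ((hι.trans hl.νμ).trans hμρ)
    · intro q hq hqc
      obtain ⟨ξ, hξ⟩ := ha2 q (fun c => c) (hqc.trans hl.νμ) fun c => Or.inr (hq c.2)
      have h1 := hξ ξ le_rfl
      have hc : #(q ⊕ ι) ≤ ν := mk_sum_le' hν hqc hι
      have h2 := EqS.mono (hν.trans (hst ν hl.hℓ).1) hα h1 (hc.trans (hst ν hl.hℓ).1)
      obtain ⟨s, hsG, hs'⟩ := exists_mem_autG h₀ hK hunb hst hCm hs hCc hl.hℓ
        (hl.νμ.trans_lt (hl.μΛ hunb)) hc _ _ h2.symm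
      refine ⟨s, hsG, fun c hc => hs' (Sum.inl ⟨c, hc⟩), fun i => ?_⟩
      have h3 : s (z i) = a ξ i := hs' (Sum.inr i)
      rw [h3]
      exact ⟨(ξ, i), rfl⟩

/-- A sequence in `D` which converges to `x₀` over `D` and to `x'` over `B'`. -/
theorem hlim_of_convT (hl : Lvl ℓ κf α ν μ ρ θ) (hα : α ν ≤ μ)
    {X : Type u} [LinearOrder X] [Nonempty X] (hX : #X ≤ ρ) {D B' : Set C} {ι : Type u}
    (hι : #ι ≤ ν) (b : X → ι → C) (x x' : ι → C) (hb : ∀ ξ i, b ξ i ∈ D)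
    (h1 : Conv L μ b x D) (h2 : Conv L μ b x' B') :
    ∃ q₁ ⊆ D, #q₁ ≤ ρ ∧ ∀ y₁ ⊆ B', #y₁ ≤ ν → ∀ y₂ ⊆ D, #y₂ ≤ ν → ∃ s₁ ∈ autG L C,
      ∃ s₂ ∈ autG L C, (∀ y ∈ y₁, s₁ y = y) ∧ (∀ y ∈ y₂, s₂ y = y) ∧
        ∀ i, s₁ (x' i) = s₂ (x i) ∧ s₂ (x i) ∈ q₁ := by
  have hμ := hl.hμ hK
  have hν : ℵ₀ ≤ ν := hK.1.trans hl.hℓ
  have hμρ := hl.μρ hunb
  refine ⟨range fun q : X × ι => b q.1 q.2, ?_, ?_, ?_⟩
  · rintro _ ⟨q, rfl⟩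
    exact hb _ _
  · exact mk_range_le.trans (mk_prod_le (hμ.trans hμρ) hX ((hι.trans hl.νμ).trans hμρ))
  · intro y₁ hy₁ hy₁c y₂ hy₂ hy₂c
    obtain ⟨ξ₁, hξ₁⟩ := h2 y₁ (fun c => c) (hy₁c.trans hl.νμ) fun c => hy₁ c.2
    obtain ⟨ξ₂, hξ₂⟩ := h1 y₂ (fun c => c) (hy₂c.trans hl.νμ) fun c => hy₂ c.2
    have h3 := hξ₁ _ (le_max_left ξ₁ ξ₂)
    have h4 := hξ₂ _ (le_max_right ξ₁ ξ₂)
    have hc₁ : #(y₁ ⊕ ι) ≤ ν := mk_sum_le' hν hy₁c hι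
    have hc₂ : #(y₂ ⊕ ι) ≤ ν := mk_sum_le' hν hy₂c hι
    have h5 := EqS.mono (hν.trans (hst ν hl.hℓ).1) hα h3 (hc₁.trans (hst ν hl.hℓ).1)
    have h6 := EqS.mono (hν.trans (hst ν hl.hℓ).1) hα h4 (hc₂.trans (hst ν hl.hℓ).1)
    obtain ⟨s₁, hs₁, hs₁'⟩ := exists_mem_autG h₀ hK hunb hst hCm hs hCc hl.hℓ
      (hl.νμ.trans_lt (hl.μΛ hunb)) hc₁ _ _ h5.symm
    obtain ⟨s₂, hs₂, hs₂'⟩ := exists_mem_autG h₀ hK hunb hst hCm hs hCc hl.hℓ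
      (hl.νμ.trans_lt (hl.μΛ hunb)) hc₂ _ _ h6.symm
    refine ⟨s₁, hs₁, s₂, hs₂, fun c hc => hs₁' (Sum.inl ⟨c, hc⟩),
      fun c hc => hs₂' (Sum.inl ⟨c, hc⟩), fun i => ?_⟩
    have h7 : s₁ (x' i) = b (max ξ₁ ξ₂) i := hs₁' (Sum.inr i)
    have h8 : s₂ (x i) = b (max ξ₁ ξ₂) i := hs₂' (Sum.inr i)
    refine ⟨h7.trans h8.symm, ?_⟩
    rw [h8]
    exact ⟨(_, i), rfl⟩

/-- **Shrinking isolating sets.** `T` is a reflecting subset of the strong submodel `N` of size `θ`,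
`e ⊆ T`, `D ⊆ T`, and the set `B` isolates the type of `e` over `X`. If the small pieces of `X` are
limits over `D` of sequences in `D`, which have limits in `X` over `B'`, and the small pieces of
`B'` are reflected into `D` over the small pieces of `T`, then `D` isolates the type of `e` over
`X`. -/
theorem pg_isol_shrinkT (hl : Lvl ℓ κf α ν μ ρ θ) (hα : α ν ≤ μ) {N : L.Substructure C}
    (hN : K.le N) (hNc : #N = θ) {T : Set C} (hTr : Refl L ρ T) (hTN : T ⊆ N)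
    {X B B' D e : Set C} (hDT : D ⊆ T) (heT : e ⊆ T) (hB'N : B' ⊆ N)
    (hμ₁ : ℵ₀ ≤ μ₁) (heμ : #e ≤ μ₀) (hμμ : μ₀ ≤ μ₁) (hμν : μ₁ ≤ ν)
    (hlim : ∀ x₀ ⊆ X, #x₀ ≤ μ₀ → ∃ (Ξ : Type u) (_ : LinearOrder Ξ) (_ : Nonempty Ξ)
      (b : Ξ → x₀ → C) (x' : x₀ → C), #Ξ ≤ ρ ∧ (∀ ξ i, b ξ i ∈ D) ∧ (∀ i, x' i ∈ X) ∧
      Conv L μ b (fun i => (i : C)) D ∧ Conv L μ b x' B')
    (hrefl : ∀ y ⊆ B', #y ≤ μ₁ → ∀ q ⊆ T, #q ≤ ρ →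
      ∃ t ∈ autG L C, (∀ x ∈ q, t x = x) ∧ ∀ x ∈ y, t x ∈ D)
    (hTB : ∀ E : Set C, #E ≤ μ₀ → ∀ g ∈ autG L C, (∀ y ⊆ B', #y ≤ μ₁ →
      ∃ h ∈ autG L C, (∀ x ∈ y, h x = x) ∧ ∀ x ∈ E, h x = g x) →
      ∃ h ∈ autG L C, (∀ x ∈ B, h x = x) ∧ ∀ x ∈ E, h x = g x)
    (hTX : ∀ g ∈ autG L C, (∀ y ⊆ X, #y ≤ μ₀ →
      ∃ h ∈ autG L C, (∀ x ∈ y, h x = x) ∧ ∀ x ∈ e, h x = g x) →
      ∀ A ⊆ X, #A < θ → ∃ h ∈ autG L C, (∀ x ∈ A, h x = x) ∧ ∀ x ∈ e, h x = g x)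
    (hB : (pg h₀ hK hunb hst hCm hs hCc).Isol B X e) :
    (pg h₀ hK hunb hst hCm hs hCc).Isol D X e := by
  classical
  have hν : ℵ₀ ≤ ν := hK.1.trans hl.hℓ
  have hνρ : ν ≤ ρ := hl.νμ.trans (hl.μρ hunb)
  have heν : #e ≤ ν := heμ.trans (hμμ.trans hμν)
  refine isol_shrinkT (M := pg h₀ hK hunb hst hCm hs hCc) (T₁ := T) (B := B) (B' := B')
    (μ := μ₀) (μ' := μ₁) (τ := ρ) hDT heT (heμ.trans hμμ) (hν.trans hνρ) hμ₁ (hμν.trans hνρ)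
    (((hμμ.trans hμν).trans hνρ).trans_lt hl.lt) hrefl ?_ ?_ (hTB e heμ)
    (fun x₀ _ hx₀c => hTB x₀ hx₀c) hTX hB
  · intro g hg hgD x₀ hx₀ hx₀c
    obtain ⟨z, h1, q₀, hq₀, hq₀c, h2⟩ := exists_free_copyT h₀ hK hunb hst hCm hs hCc
      hl hα hN hNc hTr hTN (ι := e ⊕ x₀) (mk_sum_le' hν heν (hx₀c.trans (hμμ.trans hμν)))
      (Sum.elim (fun a : e => g a) fun a : x₀ => (a : C))
    refine ⟨fun x => if hx : x ∈ e then z (Sum.inl ⟨x, hx⟩) else x,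
      fun x => if hx : x ∈ x₀ then z (Sum.inr ⟨x, hx⟩) else x, ?_, q₀, hq₀, hq₀c, ?_⟩
    · intro p hp hpc
      obtain ⟨k, hk, hk1, hk2⟩ := h1 p hp (hpc.trans hμν)
      refine ⟨k, hk, hk1, fun x hx => ?_, fun x hx => ?_⟩
      · simp only [dif_pos hx]
        exact hk2 (Sum.inl ⟨x, hx⟩)
      · simp only [dif_pos hx]
        exact hk2 (Sum.inr ⟨x, hx⟩)
    · intro q hq hqc
      obtain ⟨s, hs1, hs2, hs3⟩ := h2 q (hq.trans (union_subset hB'N fun c hc =>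
        hTN (hDT hc))) (hqc.trans hμν)
      refine ⟨s, hs1, hs2, fun x hx => ?_, fun x hx => ?_⟩
      · simp only [dif_pos hx]
        exact hs3 (Sum.inl ⟨x, hx⟩)
      · simp only [dif_pos hx]
        exact hs3 (Sum.inr ⟨x, hx⟩)
  · intro x₀ hx₀ hx₀c
    obtain ⟨Ξ, _, _, b, x', hΞ, hb, hx', hc1, hc2⟩ := hlim x₀ hx₀ hx₀c
    obtain ⟨q₁, hq₁, hq₁c, h3⟩ := hlim_of_convT h₀ hK hunb hst hCm hs hCc hl hα hΞ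
      (hx₀c.trans (hμμ.trans hμν)) b (fun i => (i : C)) x' hb hc1 hc2
    refine ⟨fun x => if hx : x ∈ x₀ then x' ⟨x, hx⟩ else x, fun x hx => ?_, q₁, hq₁, hq₁c, ?_⟩
    · simp only [dif_pos hx]
      exact hx' _
    · intro y₁ hy₁ hy₁c y₂ hy₂ hy₂c
      obtain ⟨s₁, hs₁, s₂, hs₂, h4, h5, h6⟩ := h3 y₁ hy₁ (hy₁c.trans hμν) y₂ hy₂
        (hy₂c.trans hμν)
      refine ⟨s₁, hs₁, s₂, hs₂, h4, h5, fun x hx => ?_⟩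
      simp only [dif_pos hx]
      exact h6 ⟨x, hx⟩

end

end Vale.Agent.P307.R2.H672
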