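import Vale.Agent.P307.R2.H672.Ext

set_option linter.unusedSectionVars false

universe u v w

open FirstOrder Cardinal Set

namespace Vale.Agent.P307.R2.H301

open Vale.Agent.P307 Vale.Agent.P307.H304 Vale.Agent.P307.R2.H287 Language.Structure
  Language.Substructure

variable {L : Language.{u, u}} {X : Ctx L} {θ : Cardinal.{u}}
variable {M N P : Type u} [L.Structure M] [L.Structure N] [L.Structure P]

namespace Ctx

/-- The union of a coherent directed system of isomorphisms. -/
theorem exists_equiv_of_isoS {Ω : Type u} (S : Finset Ω → L.Substructure M)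
    (T : Finset Ω → L.Substructure N) (hS : Monotone S) (hcS : ∀ x, ∃ s, x ∈ S s)
    (hcT : ∀ x, ∃ s, x ∈ T s) (F : Finset Ω → M → N) (hF : ∀ s, IsoS (F s) (S s) (T s))
    (hc : ∀ s t, s ⊆ t → ∀ x ∈ S s, F t x = F s x) : Nonempty (M ≃[L] N) := by
  classical
  choose σ hσ using hcS
  let Φ : M → N := fun x => F (σ x) x
  have hΦ : ∀ s x, x ∈ S s → Φ x = F s x := by
    intro s x hx
    rw [← hc s (s ∪ σ x) Finset.subset_union_left x hx,
      hc (σ x) (s ∪ σ x) Finset.subset_union_right x (hσ x)]
  have hfin : ∀ {n : ℕ} (x : Fin n → M), ∃ s, ∀ k, x k ∈ S s := by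
    intro n x
    exact ⟨Finset.univ.biUnion fun k => σ (x k), fun k =>
      hS (Finset.subset_biUnion_of_mem (fun k => σ (x k)) (Finset.mem_univ k)) (hσ (x k))⟩
  have hinj : Function.Injective Φ := by
    intro x y hxy
    have hx : x ∈ S (σ x ∪ σ y) := hS Finset.subset_union_left (hσ x)
    have hy : y ∈ S (σ x ∪ σ y) := hS Finset.subset_union_right (hσ y)
    rw [hΦ _ x hx, hΦ _ y hy] at hxy
    exact (hF _).inj hx hy hxy
  have hsurj : Function.Surjective Φ := by
    intro y
    obtain ⟨s, hs⟩ := hcT y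
    obtain ⟨x, hx, hxy⟩ := (hF s).surj hs
    exact ⟨x, (hΦ s x hx).trans hxy⟩
  refine ⟨⟨Equiv.ofBijective Φ ⟨hinj, hsurj⟩, ?_, ?_⟩⟩
  · intro n f x
    obtain ⟨s, hs⟩ := hfin x
    obtain ⟨e, he⟩ := hF s
    have h1 : funMap f x ∈ S s := (S s).fun_mem f x hs
    change Φ (funMap f x) = funMap f (Φ ∘ x)
    have h2 : (⟨funMap f x, h1⟩ : S s) = funMap f fun k => (⟨x k, hs k⟩ : S s) := rfl
    rw [hΦ s _ h1, show F s (funMap f x) = F s (⟨funMap f x, h1⟩ : S s) from rfl, he, h2,
      e.map_fun]
    change funMap f (fun k => ((e ⟨x k, hs k⟩ : T s) : N)) = _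
    congr 1
    funext k
    change _ = Φ (x k)
    rw [hΦ s _ (hs k), ← he]
  · intro n r x
    obtain ⟨s, hs⟩ := hfin x
    obtain ⟨e, he⟩ := hF s
    change RelMap r (Φ ∘ x) ↔ RelMap r x
    have h2 := e.map_rel r (fun k => (⟨x k, hs k⟩ : S s))
    have h3 : RelMap r (fun k => (⟨x k, hs k⟩ : S s)) ↔ RelMap r x := Iff.rfl
    rw [← h3, ← h2]
    have h4 : Φ ∘ x = fun k => ((e ⟨x k, hs k⟩ : T s) : N) := by
      funext k
      change Φ (x k) = _
      rw [hΦ s _ (hs k), ← he]
    rw [h4]
    exact Iff.rfl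

namespace Fam

variable {q : MinPt X θ} {Ω : Type u} (A : Fam X q Ω M) (B : Fam X q Ω N)

/-- Coherent families of good maps on the finite faces exist. -/
theorem exists_coherent (hθ : X.Adm3 θ) : ∃ F : Finset Ω → M → N,
    (∀ s : Finset Ω, Good A B s (F s)) ∧ ∀ s t : Finset Ω, s ⊆ t → ∀ x ∈ A.D s, F t x = F s x := by
  classical
  have hne : Nonempty N := by
    have h1 : #N ≠ 0 := by
      refine ((aleph0_pos.trans_le (X.hK.1.trans hθ.lt.le)).trans_le ?_).ne'
      rw [← q.card, ← mk_range_emb B.i]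
      exact mk_set_le _
    exact mk_ne_zero_iff.1 h1
  -- the specification of the map of `s` relative to the maps of the proper subsets
  let Sp : ∀ s : Finset Ω, (∀ t : Finset Ω, t ⊂ s → M → N) → (M → N) → Prop := fun s G f =>
    Good A B (s : Set Ω) f ∧ ∀ t (h : t ⊂ s), ∀ x ∈ A.D (t : Set Ω), f x = G t h x
  let F : Finset Ω → M → N := Finset.strongInduction (p := fun _ => M → N) fun s G =>
    Classical.epsilon (Sp s G)
  have hF : ∀ s, F s = Classical.epsilon (Sp s fun t _ => F t) := fun s =>
    Finset.strongInduction_eq _ s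
  have key : ∀ s : Finset Ω, Good A B s (F s) ∧ ∀ t : Finset Ω, t ⊂ s → ∀ x ∈ A.D t, F s x = F t x := by
    intro s
    induction s using Finset.strongInduction with
    | H s ih =>
      have hex : ∃ f, Sp s (fun t _ => F t) f := by
        obtain ⟨f, hf1, hf2⟩ := exists_step A B hθ s.finite_toSet
          (fun t => if h : t.Finite then F h.toFinset else fun _ => Classical.arbitrary N) (by
            intro t ht
            have hfin : t.Finite := s.finite_toSet.subset ht.subset
            have h1 : hfin.toFinset ⊂ s := by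
              rw [← Finset.coe_ssubset, Finite.coe_toFinset]
              exact ht
            simp only [hfin, dite_true]
            have h2 := (ih _ h1).1
            rwa [Finite.coe_toFinset] at h2) (by
            intro t t' htt ht' x hx
            have hfin' : t'.Finite := s.finite_toSet.subset ht'.subset
            have hfin : t.Finite := hfin'.subset htt
            simp only [hfin, hfin', dite_true]
            by_cases h : t = t'
            · subst h
              rfl
            · have h1 : hfin'.toFinset ⊂ s := by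
                rw [← Finset.coe_ssubset, Finite.coe_toFinset]
                exact ht'
              have h2 : hfin.toFinset ⊂ hfin'.toFinset := by
                rw [← Finset.coe_ssubset, Finite.coe_toFinset, Finite.coe_toFinset]
                exact ssubset_of_subset_of_ne htt h
              refine (ih _ h1).2 _ h2 x ?_
              rwa [Finite.coe_toFinset])
        refine ⟨f, hf1, fun t h x hx => ?_⟩
        rw [hf2 (t : Set Ω) (Finset.coe_ssubset.2 h) x hx]
        simp
      have h2 := Classical.epsilon_spec hex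
      rw [← hF s] at h2
      exact h2
  refine ⟨F, fun s => (key s).1, fun s t hst x hx => ?_⟩
  rcases eq_or_ssubset_of_subset hst with rfl | h
  · rfl
  · exact (key t).2 s h x hx

/-- Members which are generated by independent families with the same index set are isomorphic. -/
theorem exists_equiv (hθ : X.Adm3 θ) (hA : A.D Set.univ = ⊤) (hB : B.D Set.univ = ⊤) :
    Nonempty (M ≃[L] N) := by
  classical
  obtain ⟨F, hF, hc⟩ := exists_coherent A B hθ
  have hcov : ∀ {N : Type u} [L.Structure N] (B : Fam X q Ω N), B.D Set.univ = ⊤ → ∀ x,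
      ∃ s : Finset Ω, x ∈ B.D s := by
    intro N _ B hB x
    have hx : x ∈ B.D Set.univ := by rw [hB]; trivial
    unfold D at hx
    rw [union_comm] at hx
    obtain ⟨t, ht, htf, hxt⟩ := exists_finite B.hi.mem_right (by
      rw [mk_range_emb, q.card]
      exact hθ.lt.le) hx
    obtain ⟨s, -, hs⟩ := Finset.subset_set_image_iff.1
      (show (htf.toFinset : Set N) ⊆ B.a '' Set.univ by rwa [Finite.coe_toFinset])
    refine ⟨s, ?_⟩
    have h1 : B.a '' (s : Set Ω) = t := by
      rw [← Finset.coe_image, hs, Finite.coe_toFinset]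
    unfold D
    rw [h1, union_comm]
    exact hxt
  exact exists_equiv_of_isoS (fun s : Finset Ω => A.D s) (fun s : Finset Ω => B.D s)
    (fun s t hst => A.D_mono (Finset.coe_subset.2 hst)) (hcov A hA) (hcov B hB) F
    (fun s => (hF s).iso) hc

end Fam

/-- Members of the same cardinality above `θ` are isomorphic. -/
theorem exists_equiv_of_card (hθ : X.Adm3 θ) (q : MinPt X θ) (hM : X.K.mem M) (hN : X.K.mem N)
    (hMN : #M = #N) (hMθ : θ < #M) : Nonempty (M ≃[L] N) := by
  obtain ⟨i, hi⟩ := exists_emb_big hθ.toAdm2.toAdm q.emb.mem_left q.card ⟨hM, hMθ.le⟩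
  obtain ⟨j, hj⟩ := exists_emb_big hθ.toAdm2.toAdm q.emb.mem_left q.card ⟨hN, hMθ.le.trans hMN.le⟩
  obtain ⟨I, hI1, hI2, hI3⟩ := q.exists_basis hθ hi
  obtain ⟨J, hJ1, hJ2, hJ3⟩ := q.exists_basis hθ hj
  have hI4 := q.cl_basis hθ hi hI3
  have hJ4 := q.cl_basis hθ hj hJ3
  have hIc := q.mk_basis hθ hi hI4 hMθ
  have hJc := q.mk_basis hθ hj hJ4 (hMθ.trans_eq hMN)
  obtain ⟨h⟩ := Cardinal.eq.1 (hIc.trans (hMN.trans hJc.symm))
  let A : Fam X q I M := ⟨i, hi, fun w => w, fun w => hI1 _ w.2, fun w hw => hI2 _ w.2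
    (cl_mono X.K (union_subset_union_right _ (by
      rintro _ ⟨v, hv, rfl⟩
      exact ⟨v.2, fun h => hv (Subtype.ext h)⟩)) hw)⟩
  let B : Fam X q I N := ⟨j, hj, fun w => h w, fun w => hJ1 _ (h w).2, fun w hw => hJ2 _ (h w).2
    (cl_mono X.K (union_subset_union_right _ (by
      rintro _ ⟨v, hv, rfl⟩
      exact ⟨(h v).2, fun h' => hv (h.injective (Subtype.ext h'))⟩)) hw)⟩
  refine Fam.exists_equiv A B hθ ?_ ?_
  · rw [← hI4]
    unfold Fam.D
    congr 2
    rw [image_univ]
    exact Subtype.range_coe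
  · rw [← hJ4]
    unfold Fam.D
    congr 2
    rw [image_univ]
    change range (Subtype.val ∘ h) = J
    rw [h.surjective.range_comp]
    exact Subtype.range_coe

/-- Members of all large cardinalities exist. -/
theorem exists_member (X : Ctx L) {κ : Cardinal.{u}} (hκ : X.l ≤ κ) :
    ∃ (M : Type u) (_ : L.Structure M), X.K.mem M ∧ #M = κ := by
  obtain ⟨h1, ⟨N, _, hN, hNκ⟩, -⟩ := X.hunb κ
  obtain ⟨S, hS, -, hSc⟩ := exists_sub_card X.hK hκ hN (h1.le.trans hNκ.ge) ∅ (by simp)
  exact ⟨S, inferInstance, (X.K.mem_of_le S hS).1, hSc⟩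

end Ctx

end Vale.Agent.P307.R2.H301
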